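import Vale.Agent.P237.Quant.TailData.N18.tailN18N1Part0
import Vale.Agent.P237.Quant.TailData.N18.tailN18N1Part1
import Vale.Agent.P237.Quant.TailData.N18.tailN18N1Part2

/-!
Tail calibration tailN18N1 in dimension 18. The check. Generated data, checked by the kernel.
-/

set_option maxRecDepth 100000
set_option linter.all false

namespace Vale.Agent.P237.Quant.TailData

open TailCert


/-- The calibration. -/
noncomputable def tailN18N1 : Cfg :=
  tailN18N1Base.withIvals (List.flatten [tailN18N1L0, tailN18N1L1, tailN18N1L2, tailN18N1L3, tailN18N1L4, tailN18N1L5, tailN18N1L6, tailN18N1L7, tailN18N1L8, tailN18N1L9, tailN18N1L10])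

theorem tailN18N1_parts : [tailN18N1L0, tailN18N1L1, tailN18N1L2, tailN18N1L3, tailN18N1L4, tailN18N1L5, tailN18N1L6, tailN18N1L7, tailN18N1L8, tailN18N1L9, tailN18N1L10].Forall fun l => tailN18N1Base.partUsed tailN18N1Used l = true := by
  simp only [List.forall_cons, List.Forall]
  exact ⟨tailN18N1L0_ok, tailN18N1L1_ok, tailN18N1L2_ok, tailN18N1L3_ok, tailN18N1L4_ok, tailN18N1L5_ok, tailN18N1L6_ok, tailN18N1L7_ok, tailN18N1L8_ok, tailN18N1L9_ok, tailN18N1L10_ok⟩

theorem tailN18N1_check : tailN18N1.check = true :=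
  Cfg.check_of_parts (by decide +kernel) tailN18N1_parts

end Vale.Agent.P237.Quant.TailData
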