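import Vale.Agent.P237.Quant.TailData.N18.tailN18P2Part0
import Vale.Agent.P237.Quant.TailData.N18.tailN18P2Part1
import Vale.Agent.P237.Quant.TailData.N18.tailN18P2Part2

/-!
Tail calibration tailN18P2 in dimension 18. The check. Generated data, checked by the kernel.
-/

set_option maxRecDepth 100000
set_option linter.all false

namespace Vale.Agent.P237.Quant.TailData

open TailCert


/-- The calibration. -/
noncomputable def tailN18P2 : Cfg :=
  tailN18P2Base.withIvals (List.flatten [tailN18P2L0, tailN18P2L1, tailN18P2L2, tailN18P2L3, tailN18P2L4, tailN18P2L5, tailN18P2L6, tailN18P2L7, tailN18P2L8, tailN18P2L9, tailN18P2L10, tailN18P2L11])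

theorem tailN18P2_parts : [tailN18P2L0, tailN18P2L1, tailN18P2L2, tailN18P2L3, tailN18P2L4, tailN18P2L5, tailN18P2L6, tailN18P2L7, tailN18P2L8, tailN18P2L9, tailN18P2L10, tailN18P2L11].Forall fun l => tailN18P2Base.partUsed tailN18P2Used l = true := by
  simp only [List.forall_cons, List.Forall]
  exact ⟨tailN18P2L0_ok, tailN18P2L1_ok, tailN18P2L2_ok, tailN18P2L3_ok, tailN18P2L4_ok, tailN18P2L5_ok, tailN18P2L6_ok, tailN18P2L7_ok, tailN18P2L8_ok, tailN18P2L9_ok, tailN18P2L10_ok, tailN18P2L11_ok⟩

theorem tailN18P2_check : tailN18P2.check = true :=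
  Cfg.check_of_parts (by decide +kernel) tailN18P2_parts

end Vale.Agent.P237.Quant.TailData
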