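import Vale.Agent.P237.Quant.TailPartsLink
import Vale.Agent.P237.Quant.RowTables
import Vale.Agent.P237.Quant.EnvelopeTableData.N16
import Vale.Agent.P237.Quant.TailData.N18.tailN18P0
import Vale.Agent.P237.Quant.TailData.N18.tailN18P1
import Vale.Agent.P237.Quant.TailData.N18.tailN18P2
import Vale.Agent.P237.Quant.TailData.N18.tailN18P3
import Vale.Agent.P237.Quant.TailData.N18.tailN18N0
import Vale.Agent.P237.Quant.TailData.N18.tailN18N1

/-!
The tail inequalities of the rows of both sides in dimension 18. Generated.
-/

namespace Vale.Agent.P237.Quant

open TailCert TailData

/-- The tail inequalities of `negRow14` in dimension 18. -/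
theorem negRow14_tailAt18 : negRow14.TailAt 17 := by
  intro P hP
  simp only [negRow14, binsOf, List.mem_cons, List.not_mem_nil, or_false] at hP
  rcases hP with rfl | rfl
  · exact tailBin_negParts tailN18N0_check tailN18N0_parts envTable18_check (by decide +kernel)
  · exact tailBin_negParts tailN18N1_check tailN18N1_parts envTable18_check (by decide +kernel)

/-- The tail inequalities of `posRow16` in dimension 18. -/
theorem posRow16_tailAt18 : posRow16.TailAt 17 := by
  intro P hP
  simp only [posRow16, posRowA, posCuts14, posCuts16, binsOf, List.mem_cons, List.not_mem_nil, or_false] at hP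
  rcases hP with rfl | rfl | rfl | rfl
  · exact tailBin_posParts tailN18P0_check tailN18P0_parts envTable18_check (by decide +kernel)
  · exact tailBin_posParts tailN18P1_check tailN18P1_parts envTable18_check (by decide +kernel)
  · exact tailBin_posParts tailN18P2_check tailN18P2_parts envTable18_check (by decide +kernel)
  · exact tailBin_posParts tailN18P3_check tailN18P3_parts envTable18_check (by decide +kernel)

end Vale.Agent.P237.Quant
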